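import Vale.Agent.N087.Scale

/-! Comparison principles for the nonmicrostates free entropy. -/

set_option autoImplicit false
set_option linter.all false

open MeasureTheory Filter
open scoped ENNReal NNReal Topology

noncomputable section

namespace Vale.Agent.N087

open Vale.Agent.P087

variable {ι : Type} [Fintype ι] [DecidableEq ι]

theorem chiStar_le (ν : ℝ → List ι → ℂ) (U : ℝ → ℝ)
    (hU : ∀ t, 0 < t → ENNReal.ofReal (U t) ≤ fisher (ν t))
    (hint : IntegrableOn (fun t => (Fintype.card ι : ℝ) / (1 + t) - U t) (Set.Ioi 0)) :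
    chiStar ν ≤ (((1 / 2) * (∫ t in Set.Ioi (0 : ℝ), ((Fintype.card ι : ℝ) / (1 + t) - U t))
        + (Fintype.card ι : ℝ) / 2 * Real.log (2 * Real.pi * Real.exp 1) : ℝ) : EReal) := by
  set f : ℝ → ℝ := fun t => (Fintype.card ι : ℝ) / (1 + t) - U t with hf
  have hpos : (∫⁻ t in Set.Ioi (0 : ℝ),
      (ENNReal.ofReal (Fintype.card ι / (1 + t)) - fisher (ν t))) ≤
      ∫⁻ t in Set.Ioi (0 : ℝ), ENNReal.ofReal (f t) := by
    refine setLIntegral_mono' measurableSet_Ioi fun t ht => ?_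
    refine (tsub_le_tsub_left (hU t ht) _).trans (tsub_le_iff_right.2 ?_)
    refine le_trans (le_of_eq ?_) ENNReal.ofReal_add_le
    rw [hf]
    simp only [sub_add_cancel]
  have hneg : (∫⁻ t in Set.Ioi (0 : ℝ), ENNReal.ofReal (-f t)) ≤
      ∫⁻ t in Set.Ioi (0 : ℝ), (fisher (ν t) - ENNReal.ofReal (Fintype.card ι / (1 + t))) := by
    refine setLIntegral_mono' measurableSet_Ioi fun t ht => ?_
    have h1 : -f t = U t - (Fintype.card ι : ℝ) / (1 + t) := by
      rw [hf]
      simp only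
      ring
    have ht0 : (0 : ℝ) < t := ht
    rw [h1, ENNReal.ofReal_sub _ (by positivity)]
    exact tsub_le_tsub_right (hU t ht) _
  have hfin1 : (∫⁻ t in Set.Ioi (0 : ℝ), ENNReal.ofReal (f t)) ≠ ⊤ := hint.lintegral_lt_top.ne
  have hfin2 : (∫⁻ t in Set.Ioi (0 : ℝ), ENNReal.ofReal (-f t)) ≠ ⊤ :=
    hint.neg.lintegral_lt_top.ne
  have hintf : ∫ t in Set.Ioi (0 : ℝ), f t =
      (∫⁻ t in Set.Ioi (0 : ℝ), ENNReal.ofReal (f t)).toReal
        - (∫⁻ t in Set.Ioi (0 : ℝ), ENNReal.ofReal (-f t)).toReal :=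
    integral_eq_lintegral_pos_part_sub_lintegral_neg_part hint
  unfold chiStar
  rw [EReal.coe_add]
  refine add_le_add ?_ le_rfl
  rw [EReal.coe_mul]
  refine mul_le_mul_of_nonneg_left ?_ (EReal.coe_nonneg.2 (by norm_num))
  rw [hintf, EReal.coe_sub, EReal.coe_ennreal_toReal hfin1, EReal.coe_ennreal_toReal hfin2]
  exact EReal.sub_le_sub (EReal.coe_ennreal_le_coe_ennreal_iff.2 hpos)
    (EReal.coe_ennreal_le_coe_ennreal_iff.2 hneg)

theorem sum_aux (d : ι → ℝ → ℝ) (t : ℝ) :
    (Fintype.card ι : ℝ) / (1 + t) - ∑ j, (1 / (1 + t) - d j t) = ∑ j, d j t := by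
  rw [Finset.sum_sub_distrib, Finset.sum_const, Finset.card_univ, nsmul_eq_mul]
  ring

theorem val_aux (d : ι → ℝ → ℝ) (hd : ∀ j, IntegrableOn (d j) (Set.Ioi 0)) :
    (1 / 2) * (∫ t in Set.Ioi (0 : ℝ),
        ((Fintype.card ι : ℝ) / (1 + t) - ∑ j, (1 / (1 + t) - d j t)))
        + (Fintype.card ι : ℝ) / 2 * Real.log (2 * Real.pi * Real.exp 1) =
      ∑ j, 1 / 2 * (Real.log (2 * Real.pi * Real.exp 1) + ∫ t in Set.Ioi (0 : ℝ), d j t) := by
  simp only [sum_aux]
  rw [integral_finsetSum _ fun j _ => hd j, ← Finset.mul_sum, Finset.sum_add_distrib,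
    Finset.sum_const, Finset.card_univ, nsmul_eq_mul]
  ring

theorem chiStar_ge_sum (ν : ℝ → List ι → ℂ) (d : ι → ℝ → ℝ)
    (hd : ∀ j, IntegrableOn (d j) (Set.Ioi 0))
    (h0 : ∀ j t, 0 < t → 0 ≤ 1 / (1 + t) - d j t)
    (h : ∀ j t, 0 < t → conjNormSq (ν t) j ≤ ENNReal.ofReal (1 / (1 + t) - d j t)) :
    ((∑ j, 1 / 2 * (Real.log (2 * Real.pi * Real.exp 1) + ∫ t in Set.Ioi (0 : ℝ), d j t) : ℝ) :
      EReal) ≤ chiStar ν := by
  rw [← val_aux d hd]
  refine chiStar_ge ν (fun t => ∑ j, (1 / (1 + t) - d j t))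
    (fun t ht => Finset.sum_nonneg fun j _ => h0 j t ht) (fun t ht => ?_) ?_
  · rw [ENNReal.ofReal_sum_of_nonneg fun j _ => h0 j t ht]
    exact Finset.sum_le_sum fun j _ => h j t ht
  · simp only [sum_aux]
    exact integrable_finsetSum _ fun j _ => hd j

theorem chiStar_le_sum (ν : ℝ → List ι → ℂ) (d : ι → ℝ → ℝ)
    (hd : ∀ j, IntegrableOn (d j) (Set.Ioi 0))
    (h : ∀ j t, 0 < t → ENNReal.ofReal (1 / (1 + t) - d j t) ≤ conjNormSq (ν t) j) :
    chiStar ν ≤ ((∑ j, 1 / 2 * (Real.log (2 * Real.pi * Real.exp 1) +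
      ∫ t in Set.Ioi (0 : ℝ), d j t) : ℝ) : EReal) := by
  rw [← val_aux d hd]
  refine chiStar_le ν (fun t => ∑ j, (1 / (1 + t) - d j t)) (fun t ht => ?_) ?_
  · refine le_trans ?_ (Finset.sum_le_sum fun j _ => h j t ht)
    exact Finset.le_sum_of_subadditive ENNReal.ofReal (by simp)
      (fun _ _ => ENNReal.ofReal_add_le) _ _
  · simp only [sum_aux]
    exact integrable_finsetSum _ fun j _ => hd j

/-- `∫₀^∞ (1/(1+t) - 1/(t+g)) dt = log g` for every `g > 0`. -/
theorem integral_log (g : ℝ) (hg : 0 < g) :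
    IntegrableOn (fun t : ℝ => 1 / (1 + t) - 1 / (t + g)) (Set.Ioi 0) ∧
      ∫ t in Set.Ioi (0 : ℝ), (1 / (1 + t) - 1 / (t + g)) = Real.log g := by
  rcases le_total g 1 with hg1 | hg1
  · exact integral_inv_sub_inv g hg hg1
  have hderiv : ∀ x ∈ Set.Ici (0 : ℝ), HasDerivAt (fun t : ℝ => Real.log (1 + t) - Real.log (t + g))
      (1 / (1 + x) - 1 / (x + g)) x := by
    intro x hx
    have hx0 : (0 : ℝ) ≤ x := hx
    have h1 : HasDerivAt (fun t : ℝ => Real.log (1 + t)) (1 / (1 + x)) x := by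
      have h := ((hasDerivAt_id x).const_add 1).log (by simp only [id]; positivity)
      simpa using h
    have h2 : HasDerivAt (fun t : ℝ => Real.log (t + g)) (1 / (x + g)) x := by
      have h := ((hasDerivAt_id x).add_const g).log (by simp only [id]; positivity)
      simpa using h
    exact h1.sub h2
  have hpos : ∀ x ∈ Set.Ioi (0 : ℝ), 0 ≤ 1 / (1 + x) - 1 / (x + g) := by
    intro x hx
    have hx0 : (0 : ℝ) < x := hx
    have : 1 / (x + g) ≤ 1 / (1 + x) := one_div_le_one_div_of_le (by positivity) (by linarith)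
    linarith
  have hlim : Tendsto (fun t : ℝ => Real.log (1 + t) - Real.log (t + g)) atTop (𝓝 0) := by
    have h1 : Tendsto (fun t : ℝ => (1 + t) / (t + g)) atTop (𝓝 1) := by
      have h2 : Tendsto (fun t : ℝ => 1 + (1 - g) / (t + g)) atTop (𝓝 (1 + 0)) := by
        apply Tendsto.add tendsto_const_nhds
        apply Tendsto.div_atTop tendsto_const_nhds
        exact tendsto_atTop_add_const_right _ _ tendsto_id
      rw [add_zero] at h2
      refine h2.congr' ?_
      filter_upwards [eventually_gt_atTop (0 : ℝ)] with t ht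
      have : t + g ≠ 0 := by positivity
      field_simp
      ring
    have h3 := (Real.continuousAt_log (one_ne_zero)).tendsto.comp h1
    rw [Real.log_one] at h3
    refine h3.congr' ?_
    filter_upwards [eventually_gt_atTop (0 : ℝ)] with t ht
    have ha : (1 + t) ≠ 0 := by positivity
    have hb : (t + g) ≠ 0 := by positivity
    simp only [Function.comp]
    rw [Real.log_div ha hb]
  refine ⟨integrableOn_Ioi_deriv_of_nonneg' hderiv hpos hlim, ?_⟩
  rw [integral_Ioi_of_hasDerivAt_of_nonneg' hderiv hpos hlim]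
  simp

/-- the error function -/
def er (t : ℝ) : ℝ := (t + 1) ^ (-(5 / 4) : ℝ)

theorem er_int : IntegrableOn er (Set.Ioi 0) :=
  integrableOn_add_rpow_Ioi_of_lt (by norm_num) (by norm_num)

theorem er_spec {t : ℝ} (ht : 0 < t) : ∃ w : ℝ, 1 ≤ w ∧ w ^ 4 = 1 + t ∧ er t = 1 / w ^ 5 := by
  have h0 : (0 : ℝ) ≤ t + 1 := by linarith
  refine ⟨(t + 1) ^ (1 / 4 : ℝ), Real.one_le_rpow (by linarith) (by norm_num), ?_, ?_⟩
  · rw [← Real.rpow_natCast, ← Real.rpow_mul h0]
    norm_num
    ring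
  · rw [er, ← Real.rpow_natCast, ← Real.rpow_mul h0, Real.rpow_neg h0, one_div]
    norm_num

/-- Two-sided bound when the Fisher information of each variable is close to that of a
semicircular variable of variance `s j + t`. -/
theorem chiStar_near (ν : ℝ → List ι → ℂ) (s : ι → ℝ) (hs : ∀ j, 0 < s j) (η : ℝ) (hη : 0 ≤ η) :
    ((∀ j t, 0 < t → conjNormSq (ν t) j ≤ ENNReal.ofReal (1 / (t + s j) + η * er t)) →
      ((∑ j, 1 / 2 * Real.log (2 * Real.pi * Real.exp 1 * s j) -
        Fintype.card ι / 2 * (η * ∫ t in Set.Ioi (0 : ℝ), er t) : ℝ) : EReal) ≤ chiStar ν) ∧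
    ((∀ j t, 0 < t → ENNReal.ofReal (1 / (t + s j) - η * er t) ≤ conjNormSq (ν t) j) →
      chiStar ν ≤ ((∑ j, 1 / 2 * Real.log (2 * Real.pi * Real.exp 1 * s j) +
        Fintype.card ι / 2 * (η * ∫ t in Set.Ioi (0 : ℝ), er t) : ℝ) : EReal)) := by
  have hi := fun j => integral_log (s j) (hs j)
  have he : IntegrableOn (fun t => η * er t) (Set.Ioi 0) := er_int.const_mul η
  have hl : ∀ j, Real.log (2 * Real.pi * Real.exp 1 * s j) =
      Real.log (2 * Real.pi * Real.exp 1) + Real.log (s j) := fun j =>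
    Real.log_mul (by positivity) (hs j).ne'
  constructor
  · intro h
    have h1 := chiStar_ge_sum ν (fun j t => (1 / (1 + t) - 1 / (t + s j)) - η * er t)
      (fun j => (hi j).1.sub he) (fun j t ht => by
        obtain ⟨w, hw, -, h3⟩ := er_spec ht
        have h4 : 0 ≤ η * er t := by rw [h3]; positivity
        have h5 : 0 ≤ 1 / (t + s j) := by have := hs j; positivity
        linarith) fun j t ht => (h j t ht).trans (le_of_eq (by congr 1; ring))
    refine le_trans (le_of_eq ?_) h1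
    congr 1
    have h2 : ∀ j, ∫ t in Set.Ioi (0 : ℝ), ((1 / (1 + t) - 1 / (t + s j)) - η * er t) =
        Real.log (s j) - η * ∫ t in Set.Ioi (0 : ℝ), er t := fun j => by
      rw [integral_sub (hi j).1 he, (hi j).2, integral_const_mul]
    simp only [h2, hl, mul_add, mul_sub, Finset.sum_add_distrib, Finset.sum_sub_distrib,
      Finset.sum_const, Finset.card_univ, nsmul_eq_mul]
    ring
  · intro h
    have h1 := chiStar_le_sum ν (fun j t => (1 / (1 + t) - 1 / (t + s j)) + η * er t)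
      (fun j => (hi j).1.add he) fun j t ht => le_trans (le_of_eq (by congr 1; ring)) (h j t ht)
    refine h1.trans (le_of_eq ?_)
    congr 1
    have h2 : ∀ j, ∫ t in Set.Ioi (0 : ℝ), ((1 / (1 + t) - 1 / (t + s j)) + η * er t) =
        Real.log (s j) + η * ∫ t in Set.Ioi (0 : ℝ), er t := fun j => by
      rw [integral_add (hi j).1 he, (hi j).2, integral_const_mul]
    simp only [h2, hl, mul_add, Finset.sum_add_distrib,
      Finset.sum_const, Finset.card_univ, nsmul_eq_mul]
    ring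

end Vale.Agent.N087

end
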