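import Vale.Agent.P087L14.Defs

/-! Change of scale of some of the variables. -/

set_option autoImplicit false

open Filter Topology

noncomputable section

namespace Vale.Agent.N087

open Vale.Agent.P087L14

/-- The tuple `X` with the variables `X_j`, `j ∈ D`, multiplied by `l`. -/
def scale {A : Type} [Ring A] [Algebra ℂ A] {n : ℕ} (D : Finset (Fin n)) (l : ℝ) (X : Fin n → A) :
    Fin n → A :=
  fun j => if j ∈ D then (l : ℂ) • X j else X j

/-- The change of scale formula for `χ^*`: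
`χ^*(l_1 X_1, …, l_n X_n) = χ^*(X) + ∑ log l_j` for all `l_j > 0`. -/
def StarScaling : Prop :=
  ∀ (A H : Type) [Ring A] [StarRing A] [Algebra ℂ A] [StarModule ℂ A]
    [NormedAddCommGroup H] [InnerProductSpace ℂ H] [CompleteSpace H] (T : Tracial A H)
    (n : ℕ) (X S : Fin n → A) (l : Fin n → ℝ), (∀ j, IsSelfAdjoint (X j)) → (∀ j, 0 < l j) →
    T.FreeSemi X S → T.WellDef X S → T.FreeSemi (fun j => (l j : ℂ) • X j) S →
    T.WellDef (fun j => (l j : ℂ) • X j) S →
    T.chiStar (fun j => (l j : ℂ) • X j) S = T.chiStar X S + (∑ j, Real.log (l j) : ℝ)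

/-- Some self-adjoint `n`-tuple `X` and set `D` of indices have, for every `l > 0`,
`χ(scale D l X) = E + |D| log l` and `χ^*(scale D l X) = E + |D| log l + G l` with real `E` and
`G l`, where `G l ≥ g` for `l ≤ 1` and `G l → 0` as `l → ∞`. -/
def ScalingGap (n : ℕ) (g : ℝ) : Prop :=
  ∃ (A H : Type) (_ : Ring A) (_ : StarRing A) (_ : Algebra ℂ A) (_ : StarModule ℂ A)
    (_ : NormedAddCommGroup H) (_ : InnerProductSpace ℂ H) (_ : CompleteSpace H)
    (T : Tracial A H) (X S : Fin n → A) (D : Finset (Fin n)) (E : ℝ) (G : ℝ → ℝ),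
    (∀ j, IsSelfAdjoint (X j)) ∧
    (∀ l, 0 < l → T.FreeSemi (scale D l X) S ∧ T.WellDef (scale D l X) S ∧
      T.chi (scale D l X) = (E + D.card * Real.log l : ℝ) ∧
      T.chiStar (scale D l X) S = (E + D.card * Real.log l + G l : ℝ)) ∧
    (∀ l, 0 < l → l ≤ 1 → g ≤ G l) ∧ Tendsto G atTop (𝓝 0)

end Vale.Agent.N087

end
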