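import Vale.Agent.N087.Model

/-! The nonmicrostates entropy of the model, for small and for large hidden variables. -/

set_option autoImplicit false
set_option linter.all false

open MeasureTheory Filter
open scoped ENNReal NNReal Topology InnerProductSpace

noncomputable section

namespace Vale.Agent.N087

open Vale.Agent.P087 Vale.Agent.P087.VN Vale.Agent.P087.H894

variable {m n : ℕ} (f : Fin n → Idx m) (q : Idx m → ℝ) (c : ℝ)

/-- the model along the heat flow -/
def Yt (t : ℝ) (j : Fin n) : (vna (Big m)).toStarSubalgebra :=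
  tupQ q (f j) + ((√t : ℝ) : ℂ) • tupS m (f j)

theorem Yt_sa (t : ℝ) (j : Fin n) : IsSelfAdjoint (Yt f q t j) :=
  P087L14.flow_sa (X := fun j => tupQ q (f j)) (S := fun j => tupS m (f j))
    (fun j => tupQ_selfAdjoint q (f j)) (fun j => star_gen _) t j

theorem law_Yt {t : ℝ} (ht : 0 < t) :
    law (vac (Big m)) (Yt f q t) = fun w => lawQ q t (w.map f) := by
  funext w
  rw [← law_tupQ q ht.le]
  exact law_reindex (vac (Big m)) (fun i => tupQ q i + ((√t : ℝ) : ℂ) • tupS m i) f w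

theorem er_pos {t : ℝ} (ht : 0 < t) : 0 ≤ er t := by
  obtain ⟨w, hw, -, h3⟩ := er_spec ht
  rw [h3]; positivity

theorem conj_ge_diag (hc : 0 < c) (hqd : ∀ a, q (a, a) = c) (j : Fin n) (a : Fin m)
    (hab : f j = (a, a)) (t : ℝ) (ht : 0 < t) :
    ENNReal.ofReal (1 / (t + scl c (f j) ^ 2)) ≤ conjNormSq (law (vac (Big m)) (Yt f q t)) j := by
  have hv := vac_q0 c t ht (f j)
  have h1 : Yt f q t j = tupQ (q0 c) (f j) + ((√t : ℝ) : ℂ) • tupS m (f j) := by
    have h0 : q0 c (a, a) = c := by simp [q0]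
    rw [Yt, hab, tupQ_diag, tupQ_diag, hqd, h0]
  have h2 : 0 < t + scl c (f j) ^ 2 := by positivity
  refine P087L14.cramer (Tm m) (Yt_sa f q t) j h2 (le_of_eq ?_)
  rw [h1, Tm_tau, hv, Complex.ofReal_re]

theorem exists_xy (d : Fin m → Fin n) (hd : ∀ a, f (d a) = (a, a)) (hc : 0 < c)
    (hqd : ∀ a, q (a, a) = c) (a b : Fin m) (z : ℂ) (t : ℝ) (ht : 0 < t) :
    ∃ (x y : (vna (Big m)).toStarSubalgebra)
      (δ : ℝ) (r : ℂ), r • (Yt f q t (d a) * Yt f q t (d b) * Yt f q t (d a)) =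
        -(z • (x * y * x)) ∧ ‖tupG (a, a) - x‖ ≤ 2 * δ ∧
        ‖tupG (b, b) - y‖ ≤ 2 * δ ∧ 0 ≤ δ ∧ δ ≤ 1 ∧ δ ≤ √t / c := by
  have hc' : (c : ℂ) ≠ 0 := Complex.ofReal_ne_zero.2 hc.ne'
  have hY : ∀ a, Yt f q t (d a) =
      (c : ℂ) • (tupG (a, a) + ((√t / c : ℝ) : ℂ) • tupS m (a, a)) := by
    intro a
    have h1 : (c : ℂ) * ((√t / c : ℝ) : ℂ) = ((√t : ℝ) : ℂ) := by
      push_cast
      field_simp
    rw [Yt, hd, tupQ_diag, hqd, smul_add, smul_smul, h1]
  rcases le_total (√t / c) 1 with hε | hε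
  · have hε0 : 0 ≤ √t / c := by positivity
    have hn : ∀ a : Fin m, ‖tupG (a, a) - (tupG (a, a) + ((√t / c : ℝ) : ℂ) • tupS m (a, a))‖ ≤
        2 * (√t / c) := by
      intro a
      rw [sub_add_cancel_left, norm_neg]
      refine (norm_smul_le _ _).trans ?_
      rw [Complex.norm_real, Real.norm_of_nonneg hε0, mul_comm]
      exact mul_le_mul_of_nonneg_right (norm_gen _) hε0
    refine ⟨_, _, √t / c, -z / (c : ℂ) ^ 3, ?_, hn a, hn b, hε0, hε, le_rfl⟩
    have h2 : -z / (c : ℂ) ^ 3 * (c * c * c) = -z := by field_simp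
    rw [hY, hY, smul_mul_smul_comm, smul_mul_smul_comm, smul_smul, h2, neg_smul]
  · refine ⟨0, 0, 1, 0, ?_, ?_, ?_, zero_le_one, le_rfl, hε⟩
    · rw [zero_smul, mul_zero, smul_zero, neg_zero]
    · rw [sub_zero, mul_one]
      exact norm_tupG (a, a)
    · rw [sub_zero, mul_one]
      exact norm_tupG (b, b)

theorem alg_aux {B : Type} [AddCommGroup B] [Module ℂ B] (z : ℂ) (P F S Z : B) :
    z • P + F + S + -(z • Z) = ((0 : ℝ) : ℂ) • P + F + S + z • (P - Z) := by
  rw [Complex.ofReal_zero, zero_smul, zero_add, smul_sub]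
  abel

theorem conj_ge_off (d : Fin m → Fin n) (hd : ∀ a, f (d a) = (a, a)) (hc : 0 < c)
    (hqd : ∀ a, q (a, a) = c) (j : Fin n) (a b : Fin m) (h : a ≠ b) (hab : f j = (a, b))
    (hq0 : 0 ≤ q (a, b)) (hq1 : q (a, b) ≤ 1) (t : ℝ) (ht : 0 < t) :
    ENNReal.ofReal (1 / (t + 1) - 112 / √c * er t) ≤
      conjNormSq (law (vac (Big m)) (Yt f q t)) j := by
  have hv := vac_q0 c t ht (f j)
  obtain ⟨x, y, δ, r, h1, hx, hy, h0, hδ1, hδ⟩ := exists_xy f q c d hd hc hqd a b (q (a, b)) t ht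
  have hda : ∀ a', d a' ≠ j := by
    intro a' h2
    have h3 := hd a'
    rw [h2, hab] at h3
    exact h ((Prod.mk.inj h3).1.trans (Prod.mk.inj h3).2.symm)
  have hs : scl c (f j) = 1 := by rw [hab]; simp [scl, h]
  obtain ⟨g, hg⟩ : ∃ g, g = tupQ (q0 c) (f j) + ((√t : ℝ) : ℂ) • tupS m (f j) := ⟨_, rfl⟩
  have hgs : star g = g := by
    rw [hg]; exact Yt_sa f (q0 c) t j
  have h2 : Yt f q t j + r • (Yt f q t (d a) * Yt f q t (d b) * Yt f q t (d a)) =
      g + (q (a, b) : ℂ) • (tupG (a, a) * tupG (b, b) * tupG (a, a) - x * y * x) := by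
    have h3 : q0 c (a, b) = 0 := by simp [q0, h]
    rw [h1, hg, Yt, hab, tupQ_off q a b h, tupQ_off (q0 c) a b h, h3]
    exact alg_aux _ _ _ _ _
  have h4 : ‖(q (a, b) : ℂ) • (tupG (a, a) * tupG (b, b) * tupG (a, a) - x * y * x)‖ ≤ 56 * δ := by
    refine (norm_smul_le _ _).trans ?_
    rw [Complex.norm_real, Real.norm_of_nonneg hq0]
    have h5 := cube_est _ _ x y δ (norm_tupG (a, a)) (norm_tupG (b, b)) hx hy hδ1
    exact (mul_le_mul hq1 h5 (norm_nonneg _) zero_le_one).trans (le_of_eq (one_mul _))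
  have h6 := vac_add_le g _ (√(1 + t)) (56 * δ) (Real.sqrt_nonneg _) (by
    rw [hgs, hg, hv, hs, Real.sq_sqrt (by linarith), Complex.ofReal_re]
    ring) h4
  have h7 : 0 < √(1 + t) := Real.sqrt_pos.2 (by linarith)
  rw [← h2] at h6
  exact le_trans (ENNReal.ofReal_le_ofReal (off_num hc ht h0 hδ1 hδ))
    (test_poly (Tm m) (Yt_sa f q t) j (d a) (d b) (hda a) (hda b) r (by positivity) h6)

theorem conj_ge (d : Fin m → Fin n) (hd : ∀ a, f (d a) = (a, a)) (hc : 0 < c)
    (hqd : ∀ a, q (a, a) = c) (hq0 : ∀ i, 0 ≤ q i) (hq1 : ∀ a b, a ≠ b → q (a, b) ≤ 1)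
    (j : Fin n) (t : ℝ) (ht : 0 < t) :
    ENNReal.ofReal (1 / (t + scl c (f j) ^ 2) - 112 / √c * er t) ≤
      conjNormSq (law (vac (Big m)) (Yt f q t)) j := by
  obtain ⟨a, b, hab⟩ : ∃ a b, f j = (a, b) := ⟨_, _, rfl⟩
  by_cases h : a = b
  · subst h
    refine le_trans (ENNReal.ofReal_le_ofReal ?_) (conj_ge_diag f q c hc hqd j a hab t ht)
    have := er_pos ht
    have h3 : 0 ≤ 112 / √c * er t := by positivity
    linarith
  · have hs : scl c (f j) = 1 := by rw [hab]; simp [scl, h]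
    rw [hs, one_pow]
    exact conj_ge_off f q c d hd hc hqd j a b h hab (hq0 _) (hq1 a b h) t ht

variable (hf : Function.Injective f) (hqd : ∀ a, q (a, a) = c)
  (hrow : ∀ a, ∑ b ∈ Finset.univ.filter (fun b => b ≠ a), q (a, b) ^ 2 ≤ 8)
  (hcol : ∀ a, ∑ b ∈ Finset.univ.filter (fun b => b ≠ a), q (b, a) ^ 2 ≤ 8)

include hrow hcol in
theorem sum_24 (a : Fin m) :
    ∑ b ∈ Finset.univ.filter (fun b => b ≠ a), (2 * q (a, b) ^ 2 + q (b, a) ^ 2) ≤ 24 := by
  rw [Finset.sum_add_distrib, ← Finset.mul_sum]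
  have := hrow a
  have := hcol a
  linarith

include hf hqd hrow hcol in
theorem conj_le (hc : 1 ≤ c) (j : Fin n) (t : ℝ) (ht : 0 < t) :
    conjNormSq (law (vac (Big m)) (Yt f q t)) j ≤
      ENNReal.ofReal (1 / (t + scl c (f j) ^ 2) + 112 / √c * er t) := by
  rw [law_Yt f q ht]
  refine (conjNormSq_sub f hf (lawQ q t) j).trans ?_
  obtain ⟨a, b, hab⟩ : ∃ a b, f j = (a, b) := ⟨_, _, rfl⟩
  rw [hab]
  by_cases h : a = b
  · subst h
    refine (diag_le_sharp q c t 24 (by linarith) ht (by norm_num) a (hqd a)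
      (sum_24 q hrow hcol a)).trans (ENNReal.ofReal_le_ofReal ?_)
    simpa [scl] using diag_num hc ht
  · refine (conjNormSq_off_le q t ht a b h).trans (ENNReal.ofReal_le_ofReal ?_)
    have := er_pos ht
    have h3 : 0 ≤ 112 / √c * er t := by positivity
    have hs : scl c (a, b) = 1 := by simp [scl, h]
    rw [hs, one_pow, add_comm t]
    linarith

include hf hqd hrow hcol in
theorem bot_lt_chiStar (hc : 0 < c) : ⊥ < chiStar fun t => law (vac (Big m)) (Yt f q t) := by
  refine (EReal.bot_lt_coe _).trans_le ((chiStar_near _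
    (fun j => if (f j).1 = (f j).2 then c ^ 2 / (1 + 24) else 1)
    (fun j => by split_ifs <;> positivity) 0 le_rfl).1 fun j t ht => ?_)
  rw [law_Yt f q ht, zero_mul, add_zero]
  refine (conjNormSq_sub f hf (lawQ q t) j).trans ?_
  obtain ⟨a, b, hab⟩ : ∃ a b, f j = (a, b) := ⟨_, _, rfl⟩
  rw [hab]
  by_cases h : a = b
  · subst h
    rw [if_pos rfl]
    exact H894.conjNormSq_diag_le q c t 24 hc ht (by norm_num) a (hqd a) (sum_24 q hrow hcol a)
  · rw [if_neg h, add_comm t]
    exact H894.conjNormSq_off_le q t ht a b h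

include hf hqd hrow hcol in
theorem chiStar_small (θ : ℝ) (hc0 : 0 < c) (hc : c ≤ 1 / 8000) (hq0 : ∀ i, 0 ≤ q i)
    (ho : ∀ a b, a ≠ b → q (a, b) ≤ θ) (hθ0 : 0 ≤ θ) (hθ : θ ≤ 1 / 10 ^ 12) :
    (((∑ i, 1 / 2 * Real.log (2 * Real.pi * Real.exp 1 * scl c (f i) ^ 2))
        + 1 / 2 * ∑ i, (if (f i).1 = (f i).2 then - Real.log 25
            else 99 / 125 * q (f i) ^ 2) : ℝ) : EReal)
      ≤ chiStar fun t => law (vac (Big m)) (Yt f q t) := by
  set g : ℝ := c ^ 2 / (1 + 24) with hgdef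
  have hg : 0 < g := by positivity
  have hq1 : ∀ a b, a ≠ b → q (a, b) ^ 2 ≤ 1 := by
    intro a b hab
    have h1 : q (a, b) ≤ 1 := (ho a b hab).trans (hθ.trans (by norm_num))
    have h2 := hq0 (a, b)
    nlinarith
  let d : Fin n → ℝ → ℝ := fun i t => if (f i).1 = (f i).2 then 1 / (1 + t) - 1 / (t + g) else
    (Set.Ioi (1 / 4 : ℝ)).indicator (fun t => q (f i) ^ 2 * (99 / 100) * (1 / (1 + t) ^ 2)) t
  obtain ⟨hi1, he1⟩ := integral_log g hg
  obtain ⟨hi2, he2⟩ := integral_inv_sq (1 / 4) (by norm_num)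
  have hinter : Set.Ioi (0 : ℝ) ∩ Set.Ioi (1 / 4 : ℝ) = Set.Ioi (1 / 4 : ℝ) :=
    Set.inter_eq_self_of_subset_right (Set.Ioi_subset_Ioi (by norm_num))
  have hdv : ∀ i, IntegrableOn (d i) (Set.Ioi 0) ∧ ∫ t in Set.Ioi (0 : ℝ), d i t =
      if (f i).1 = (f i).2 then Real.log g else 99 / 125 * q (f i) ^ 2 := by
    intro i
    by_cases h : (f i).1 = (f i).2
    · have e : d i = fun t => 1 / (1 + t) - 1 / (t + g) := by
        funext t
        simp only [d, if_pos h]
      rw [e, if_pos h]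
      exact ⟨hi1, he1⟩
    · have e : d i = (Set.Ioi (1 / 4 : ℝ)).indicator
          (fun t => q (f i) ^ 2 * (99 / 100) * (1 / (1 + t) ^ 2)) := by
        funext t
        simp only [d, if_neg h]
      constructor
      · rw [e, IntegrableOn, integrable_indicator_iff measurableSet_Ioi, IntegrableOn,
          Measure.restrict_restrict measurableSet_Ioi, Set.inter_comm, hinter]
        exact hi2.const_mul _
      · rw [e, if_neg h, integral_indicator measurableSet_Ioi,
          Measure.restrict_restrict measurableSet_Ioi, Set.inter_comm, hinter, integral_const_mul,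
          he2]
        ring
  have hmain := chiStar_ge_sum (fun t => law (vac (Big m)) (Yt f q t)) d (fun i => (hdv i).1)
    (fun i t ht => by
      simp only [d]
      split_ifs with h
      · rw [sub_sub_cancel]; positivity
      · by_cases hmem : t ∈ Set.Ioi (1 / 4 : ℝ)
        · rw [Set.indicator_of_mem hmem]
          have h1 : q (f i) ^ 2 * (99 / 100) * (1 / (1 + t) ^ 2) ≤ 1 / (1 + t) := by
            have h2 : q (f i) ^ 2 ≤ 1 := hq1 _ _ h
            rw [mul_one_div, div_le_div_iff₀ (by positivity) (by positivity)]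
            have h3 : 0 ≤ q (f i) ^ 2 := by positivity
            nlinarith
          linarith
        · rw [Set.indicator_of_notMem hmem, sub_zero]
          positivity)
    (fun i t ht => by
      rw [law_Yt f q ht]
      refine (conjNormSq_sub f hf (lawQ q t) i).trans ?_
      obtain ⟨a, b, hfi⟩ : ∃ a b, f i = (a, b) := ⟨_, _, rfl⟩
      simp only [d, hfi]
      by_cases hab : a = b
      · subst hab
        rw [if_pos rfl, sub_sub_cancel]
        exact H894.conjNormSq_diag_le q c t 24 hc0 ht (by norm_num) a (hqd a)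
          (sum_24 q hrow hcol a)
      · rw [if_neg hab]
        by_cases hmem : t ∈ Set.Ioi (1 / 4 : ℝ)
        · refine (H894.conjNormSq_off_le' q θ hq0 (fun a => (hqd a).trans_le hc) ho hrow hcol hθ0
            hθ t (le_of_lt hmem) a b hab).trans (ENNReal.ofReal_le_ofReal (le_of_eq ?_))
          rw [Set.indicator_of_mem hmem]
          have : (1 + t) ≠ 0 := by positivity
          field_simp
        · rw [Set.indicator_of_notMem hmem, sub_zero]
          exact H894.conjNormSq_off_le q t ht a b hab)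
  refine le_trans (le_of_eq ?_) hmain
  congr 1
  have hlogg : Real.log g = Real.log (c ^ 2) - Real.log 25 := by
    rw [hgdef, Real.log_div (by positivity) (by norm_num)]
    norm_num
  rw [Finset.mul_sum, ← Finset.sum_add_distrib]
  refine Finset.sum_congr rfl fun i _ => ?_
  rw [(hdv i).2]
  unfold scl
  by_cases h : (f i).1 = (f i).2
  · simp only [if_pos h]
    rw [hlogg, Real.log_mul (by positivity) (by positivity)]
    ring
  · simp only [if_neg h]
    rw [one_pow, mul_one]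
    ring

end Vale.Agent.N087

end
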