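import Vale.Agent.N087.Flow
import Vale.Agent.N087.Defs

/-! The gap between the two entropies depends on the scale of the variables. -/

set_option autoImplicit false
set_option linter.all false

open MeasureTheory Filter
open scoped ENNReal NNReal Topology

noncomputable section

namespace Vale.Agent.N087

open Vale.Agent.P087 Vale.Agent.P087.VN Vale.Agent.P087.H894

theorem exists_model (n : ℕ) (hn : 10 ^ 50 ≤ n) :
    ∃ (m : ℕ) (E : Finset (Idx m)) (e : Fin n ≃ {i // PE E i}),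
      (∀ c a, ∑ b ∈ Finset.univ.filter (fun b => b ≠ a), cf E c (1 / 10 ^ 12) (a, b) ^ 2 ≤ 8) ∧
      (∀ c a, ∑ b ∈ Finset.univ.filter (fun b => b ≠ a), cf E c (1 / 10 ^ 12) (b, a) ^ 2 ≤ 8) ∧
      ∀ c, 1 / 10 ^ 25 * (n : ℝ) ≤ 1 / 2 * ∑ j : Fin n,
        (if (e j : Idx m).1 = (e j : Idx m).2 then - Real.log 25
          else 99 / 125 * cf E c (1 / 10 ^ 12) (e j : Idx m) ^ 2) := by
  obtain ⟨D, hD⟩ : ∃ D : ℕ, D = 8 * 10 ^ 24 := ⟨_, rfl⟩
  obtain ⟨m, hm⟩ : ∃ m : ℕ, m = (n + D) / (D + 1) := ⟨_, rfl⟩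
  have hm1 : n ≤ m * (D + 1) := by
    have h1 := Nat.div_add_mod (n + D) (D + 1)
    have h2 := Nat.mod_lt (n + D) (show 0 < D + 1 by omega)
    rw [← hm] at h1
    rw [mul_comm]
    omega
  have hm2 : m * (D + 1) ≤ n + D := by
    rw [hm]
    exact Nat.div_mul_le_self _ _
  have hmD : D < m := by
    by_contra hcon
    push Not at hcon
    have h1 : m * (D + 1) ≤ D * (D + 1) := Nat.mul_le_mul_right _ hcon
    have h2 : D * (D + 1) < 10 ^ 50 := by
      rw [hD]; norm_num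
    omega
  have hmn : m ≤ n := by
    by_contra hcon
    push Not at hcon
    have h1 : (n + 1) * (D + 1) ≤ m * (D + 1) := Nat.mul_le_mul_right _ hcon
    have h2 : (n + 1) * (D + 1) = n * D + n + D + 1 := by ring
    have h3 : 0 ≤ n * D := Nat.zero_le _
    omega
  have he : n - m ≤ m * D := by
    have h2 : m * (D + 1) = m * D + m := by ring
    omega
  obtain ⟨E, hEc, hEo, hEr, hEl⟩ := exists_graph m D (n - m) hmD he
  obtain ⟨θ, hθ⟩ : ∃ θ : ℝ, θ = 1 / 10 ^ 12 := ⟨_, rfl⟩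
  rw [← hθ]
  have hcard : Fintype.card {i // PE E i} = n := by
    rw [card_PE E hEo, hEc]
    omega
  have hDθ : (D : ℝ) * θ ^ 2 = 8 := by
    rw [hD, hθ]; push_cast; norm_num
  refine ⟨m, E, (Fintype.equivFinOfCardEq hcard).symm, fun c a => ?_, fun c a => ?_, fun c => ?_⟩
  · rw [← hDθ]
    exact cf_row E c θ D a (hEr a)
  · rw [← hDθ]
    exact cf_col E c θ D a (hEl a)
  have h4 := Equiv.sum_comp (Fintype.equivFinOfCardEq hcard).symm fun i : {i // PE E i} =>
    (if (i : Idx m).1 = (i : Idx m).2 then - Real.log 25 else 99 / 125 * cf E c θ (i : Idx m) ^ 2)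
  have h5 := sum_PE E hEo fun i : Idx m =>
    (if i.1 = i.2 then - Real.log 25 else 99 / 125 * cf E c θ i ^ 2)
  have h6 : ∀ p ∈ E, (if p.1 = p.2 then - Real.log 25 else 99 / 125 * cf E c θ p ^ 2) =
      99 / 125 * θ ^ 2 := by
    intro p hp
    rw [if_neg (hEo p hp)]
    obtain ⟨a, b⟩ := p
    rw [cf_off E c θ a b (hEo _ hp), if_pos hp]
  rw [h4, h5, Finset.sum_congr rfl h6, Finset.sum_const, hEc, nsmul_eq_mul]
  simp only [if_true, Finset.sum_const, Finset.card_univ, Fintype.card_fin, nsmul_eq_mul]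
  have h7 := log_25_le
  have h8 : (n : ℝ) ≤ m * (D + 1) := by exact_mod_cast hm1
  have h9 : (m : ℝ) * (D + 1) ≤ n + D := by exact_mod_cast hm2
  have h10 : ((n - m : ℕ) : ℝ) = n - m := Nat.cast_sub hmn
  have h11 : (D : ℝ) = 8 * 10 ^ 24 := by rw [hD]; push_cast; norm_num
  have h12 : θ ^ 2 = 1 / 10 ^ 24 := by rw [hθ]; norm_num
  have h13 : (100 : ℝ) ≤ m := by
    have : (100 : ℕ) ≤ m := by
      have : (100 : ℕ) ≤ D := by rw [hD]; norm_num
      omega
    exact_mod_cast this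
  rw [h10, h12]
  rw [h11] at h8 h9
  have hmlog : (m : ℝ) * Real.log 25 ≤ m * 3.4658 :=
    mul_le_mul_of_nonneg_left h7 (by linarith)
  have e1 : ((n : ℝ) - m) * (99 / 125 * (1 / 10 ^ 24)) ≥
      (m * (8 * 10 ^ 24 + 1) - 8 * 10 ^ 24 - m) * (99 / 125 * (1 / 10 ^ 24)) := by
    apply mul_le_mul_of_nonneg_right _ (by norm_num)
    linarith
  have e2 : ((m : ℝ) * (8 * 10 ^ 24 + 1) - 8 * 10 ^ 24 - m) * (99 / 125 * (1 / 10 ^ 24)) =
      (m - 1) * (6.336) := by
    norm_num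
    ring
  have e3 : 1 / 10 ^ 25 * (n : ℝ) ≤ 1 / 10 ^ 25 * (m * (8 * 10 ^ 24 + 1)) :=
    mul_le_mul_of_nonneg_left h8 (by norm_num)
  have e4 : 1 / 10 ^ 25 * ((m : ℝ) * (8 * 10 ^ 24 + 1)) ≤ m * 0.81 := by
    have : (0 : ℝ) ≤ m := by linarith
    nlinarith
  linarith

section

variable {m n : ℕ} (f : Fin n → Idx m) (hf : Function.Injective f) (q : Idx m → ℝ)

open P087L14

include hf in
theorem model_free : (Tm m).FreeSemi (fun j => tupQ q (f j)) fun j => tupS m (f j) := by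
  have hS := isFreeSemicircularFrom f hf q
  refine ⟨hS.selfAdjoint, fun j k => ?_, hS.free⟩
  rcases Nat.even_or_odd' k with ⟨m, rfl | rfl⟩
  · rw [semi_even]; exact (hS.even j m).trans (by simp)
  · rw [semi_odd]; exact (hS.odd j m).trans (by simp)

include hf in
theorem model_well : (Tm m).WellDef (fun j => tupQ q (f j)) fun j => tupS m (f j) := by
  have hS := isFreeSemicircularFrom f hf q
  have hX : ∀ j, IsSelfAdjoint (tupQ q (f j)) := fun j => tupQ_selfAdjoint q (f j)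
  have hu : ∀ t ξ η, (Tm m).IsConj (Tracial.flow (fun j => tupQ q (f j))
      (fun j => tupS m (f j)) t) ξ → (Tm m).IsConj (Tracial.flow (fun j => tupQ q (f j))
      (fun j => tupS m (f j)) t) η → ξ = η :=
    fun t η η' h1 h2 => funext fun j =>
      cj_unique (Tm m) (flow_sa hX hS.selfAdjoint t) _ (isFNTState (Big m)).normal.choose_spec.1
        (isFNTState (Big m)).normal.choose_spec.2 j _ _ (h1 j) (h2 j)
  have hfi := fun t => fisher_eq' (Tm m) (flow_sa hX hS.selfAdjoint t) (hu t)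
  refine ⟨hu, by simp only [hfi]; exact fisher_meas (Tm m) hX hS.selfAdjoint, ?_⟩
  simp only [Tracial.posPart, hfi]
  refine posPart_fin (Tm m) hX hS.selfAdjoint
    (fun j => mixed (Tm m) (model_free f hf q).free j ?_) fun j => ?_
  · simpa [Tm_tau] using hS.odd j 0
  · simpa [pow_two, Tm_tau] using hS.even j 1

include hf in
theorem model_star : (Tm m).chiStar (fun j => tupQ q (f j)) (fun j => tupS m (f j)) =
    P087.chiStar fun t => law (vac (Big m)) (Yt f q t) :=
  P087L14.chiStar_eq (Tm m) (fun j => tupQ_selfAdjoint q (f j))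
    (isFreeSemicircularFrom f hf q).selfAdjoint (model_well f hf q).unique

end

theorem scale_eq {A : Type} [Ring A] [Algebra ℂ A] {n : ℕ} (D : Finset (Fin n)) (l : ℝ)
    (X : Fin n → A) : scale D l X = fun j => ((if j ∈ D then l else 1 : ℝ) : ℂ) • X j := by
  funext j
  unfold scale
  split_ifs
  · rfl
  · simp

theorem sum_log_scale {n : ℕ} (D : Finset (Fin n)) (l : ℝ) :
    ∑ j, Real.log (if j ∈ D then l else 1) = D.card * Real.log l := by
  simp [apply_ite Real.log]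

theorem scalingGap (n : ℕ) (hn : 10 ^ 50 ≤ n) : ScalingGap n (1 / 10 ^ 25 * n) := by
  obtain ⟨m, E, e, hrow, hcol, hgap⟩ := exists_model n hn
  obtain ⟨θ, hθ⟩ : ∃ θ : ℝ, θ = 1 / 10 ^ 12 := ⟨_, rfl⟩
  rw [← hθ] at hrow hcol hgap
  have hθ0 : 0 ≤ θ := by rw [hθ]; norm_num
  have hθ1 : θ ≤ 1 := by rw [hθ]; norm_num
  obtain ⟨c₀, hc₀⟩ : ∃ c₀ : ℝ, c₀ = 1 / 8000 := ⟨_, rfl⟩
  have hc₀0 : 0 < c₀ := by rw [hc₀]; norm_num
  have hc₀1 : c₀ ≤ 1 := by rw [hc₀]; norm_num
  let f : Fin n → Idx m := fun j => (e j : Idx m)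
  have hf : Function.Injective f := fun i j h => e.injective (Subtype.ext h)
  let d : Fin m → Fin n := fun a => e.symm ⟨(a, a), PE_diag E a⟩
  have hd : ∀ a, f (d a) = (a, a) := by
    intro a
    show ((e (e.symm ⟨(a, a), PE_diag E a⟩) : {i // PE E i}) : Idx m) = (a, a)
    rw [e.apply_symm_apply]
  have hoff : ∀ c a b, a ≠ b → cf E c θ (a, b) ≤ θ := by
    intro c a b hab
    rw [cf_off E c θ a b hab]
    split_ifs
    · exact le_rfl
    · exact hθ0
  obtain ⟨D, hD⟩ : ∃ D : Finset (Fin n), ∀ j, j ∈ D ↔ (f j).1 = (f j).2 :=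
    ⟨Finset.univ.filter fun j => (f j).1 = (f j).2, by simp⟩
  have hsc : ∀ l, scale D l (fun j => tupQ (cf E c₀ θ) (f j)) =
      fun j => tupQ (cf E (l * c₀) θ) (f j) := by
    intro l
    funext j
    obtain ⟨a, b, hab⟩ : ∃ a b, f j = (a, b) := ⟨_, _, rfl⟩
    simp only [scale, hD, hab]
    by_cases h : a = b
    · subst h
      rw [if_pos rfl, tupQ_diag, tupQ_diag, cf_diag, cf_diag, smul_smul, Complex.ofReal_mul]
    · rw [if_neg h, tupQ_off _ a b h, tupQ_off _ a b h, cf_off E _ θ a b h, cf_off E _ θ a b h]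
  obtain ⟨E₀, hE₀⟩ : ∃ E₀ : ℝ, E₀ = ent (PE E) c₀ := ⟨_, rfl⟩
  have hent : ∀ l, 0 < l →
      ∑ j, 1 / 2 * Real.log (2 * Real.pi * Real.exp 1 * scl (l * c₀) (f j) ^ 2) =
        E₀ + D.card * Real.log l := by
    intro l hl
    rw [hE₀, ent_reindex (PE E) e c₀, ← sum_log_scale, ← Finset.sum_add_distrib]
    refine Finset.sum_congr rfl fun j _ => ?_
    show _ = 1 / 2 * Real.log (2 * Real.pi * Real.exp 1 * scl c₀ (f j) ^ 2) + _
    simp only [scl, hD]
    split_ifs
    · rw [show 2 * Real.pi * Real.exp 1 * (l * c₀) ^ 2 =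
        2 * Real.pi * Real.exp 1 * c₀ ^ 2 * l ^ 2 by ring,
        Real.log_mul (by positivity) (by positivity), Real.log_pow]
      push_cast
      ring
    · simp
  have hchi : (Tm m).chi (fun j => tupQ (cf E c₀ θ) (f j)) = E₀ := by
    have h1 := (micro_exact (PE E) (PE_diag E) e (cf E c₀ θ) c₀ hc₀0 (cf_diag E c₀ θ)
      (cf_abs E c₀ θ hc₀0.le hc₀1 hθ0 hθ1)).1
    rw [FD.chi_eq] at h1
    rw [P087L14.chi_eq, hE₀, ← h1]
    congr 1
    funext w
    rw [Tm_tau, law_reindex, law_tupQ0]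
    rfl
  let F : ℝ → EReal := fun l => P087.chiStar fun t => law (vac (Big m)) (Yt f (cf E (l * c₀) θ) t)
  have hF : ∀ l, 0 < l → (((F l).toReal : ℝ) : EReal) = F l := by
    intro l hl
    refine EReal.coe_toReal (ne_of_lt ?_) (ne_of_gt ?_)
    · have h1 := P087L14.chiStar_lt_top (Tm m) (model_well f hf (cf E (l * c₀) θ)).fin
      rwa [model_star f hf] at h1
    · exact bot_lt_chiStar f _ (l * c₀) hf (cf_diag E _ θ) (hrow _) (hcol _) (by positivity)
  refine ⟨_, Fock (Big m), _, _, _, inferInstance, inferInstance, inferInstance, inferInstance,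
    Tm m, fun j => tupQ (cf E c₀ θ) (f j), fun j => tupS m (f j), D, E₀,
    fun l => (F l).toReal - (E₀ + D.card * Real.log l), fun j => tupQ_selfAdjoint _ _,
    fun l hl => ⟨?_, ?_, ?_, ?_⟩, fun l hl hl1 => ?_, ?_⟩
  · rw [hsc]; exact model_free f hf _
  · rw [hsc]; exact model_well f hf _
  · rw [scale_eq, chi_smul _ _ _ (fun j => by split_ifs <;> positivity), hchi, sum_log_scale,
      EReal.coe_add]
  · rw [hsc, model_star f hf, add_sub_cancel, hF l hl]
  · have hc : l * c₀ ≤ 1 / 8000 := by rw [← hc₀]; nlinarith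
    have h1 := chiStar_small f (cf E (l * c₀) θ) (l * c₀) hf (cf_diag E _ θ) (hrow _) (hcol _) θ
      (by positivity) hc (cf_nonneg E _ θ (by positivity) hθ0) (hoff _) hθ0 hθ.le
    rw [hent l hl] at h1
    have h2 := h1.trans (hF l hl).ge
    rw [EReal.coe_le_coe_iff] at h2
    have h3 := hgap (l * c₀)
    linarith
  · have hlim : Tendsto (fun l : ℝ => (Fintype.card (Fin n) : ℝ) / 2 *
        (112 / √(l * c₀) * ∫ t in Set.Ioi (0 : ℝ), er t)) atTop (𝓝 0) := by
      have h1 : Tendsto (fun l : ℝ => 112 / √(l * c₀)) atTop (𝓝 0) :=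
        tendsto_const_nhds.div_atTop
          (Real.tendsto_sqrt_atTop.comp (tendsto_id.atTop_mul_const hc₀0))
      simpa using (h1.mul_const (∫ t in Set.Ioi (0 : ℝ), er t)).const_mul
        ((Fintype.card (Fin n) : ℝ) / 2)
    refine squeeze_zero_norm' ?_ hlim
    filter_upwards [eventually_ge_atTop (8000 : ℝ)] with l hl
    have hl0 : 0 < l := by linarith
    have hc : 1 ≤ l * c₀ := by rw [hc₀]; linarith
    have hs : ∀ j, 0 < scl (l * c₀) (f j) ^ 2 := fun j => by
      unfold scl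
      split_ifs <;> positivity
    obtain ⟨h1, h2⟩ := chiStar_near (fun t => law (vac (Big m)) (Yt f (cf E (l * c₀) θ) t))
      (fun j => scl (l * c₀) (f j) ^ 2) hs (112 / √(l * c₀)) (by positivity)
    have h3 := (h1 (conj_le f _ (l * c₀) hf (cf_diag E _ θ) (hrow _) (hcol _) hc)).trans
      (hF l hl0).ge
    have h4 := (hF l hl0).le.trans (h2 (conj_ge f _ (l * c₀) d hd (by positivity) (cf_diag E _ θ)
      (cf_nonneg E _ θ (by positivity) hθ0) fun a b h => (hoff _ a b h).trans hθ1))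
    rw [EReal.coe_le_coe_iff, hent l hl0] at h3 h4
    rw [Real.norm_eq_abs, abs_le]
    constructor <;> linarith

theorem not_starScaling : ¬ StarScaling := fun h => by
  obtain ⟨A, H, _, _, _, _, i1, i2, i3, T, X, S, D, E, G, hX, h1, h2, h3⟩ :=
    scalingGap (10 ^ 50) le_rfl
  have h0 : scale D 1 X = X := by
    rw [scale_eq]
    funext j
    simp
  obtain ⟨hF, hW, -, h4⟩ := h1 1 one_pos
  rw [h0] at hF hW h4
  have h5 : ∀ l, 0 < l → G l = G 1 := by
    intro l hl
    obtain ⟨hF', hW', -, h6⟩ := h1 l hl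
    rw [scale_eq] at hF' hW' h6
    have h7 := h A H T _ X S (fun j => if j ∈ D then l else 1) hX
      (fun j => by split_ifs <;> positivity) hF hW hF' hW'
    rw [h6, h4, sum_log_scale, ← EReal.coe_add, EReal.coe_eq_coe_iff, Real.log_one] at h7
    linarith
  have h8 : Tendsto G atTop (𝓝 (G 1)) := by
    refine tendsto_const_nhds.congr' ?_
    filter_upwards [eventually_gt_atTop (0 : ℝ)] with l hl
    exact (h5 l hl).symm
  have h9 := tendsto_nhds_unique h3 h8
  have h10 := h2 1 one_pos le_rfl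
  rw [← h9] at h10
  norm_num at h10

end Vale.Agent.N087

end
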