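import Vale.Agent.N087.Bounds

/-! Bounds on the Fisher information of the model when the hidden variables are large. -/

set_option autoImplicit false
set_option linter.all false

open MeasureTheory Filter
open scoped ENNReal NNReal Topology InnerProductSpace

noncomputable section

namespace Vale.Agent.N087

open Vale.Agent.P087 Vale.Agent.P087.VN Vale.Agent.P087.H894

variable {m : ℕ}

theorem diag_le_sharp (q : Idx m → ℝ) (c t M : ℝ) (hc : 0 < c) (ht : 0 < t)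
    (hM0 : 0 ≤ M) (a : Fin m) (hqa : q (a, a) = c)
    (hM : ∑ b ∈ Finset.univ.filter (fun b => b ≠ a), (2 * q (a, b) ^ 2 + q (b, a) ^ 2) ≤ M) :
    conjNormSq (lawQ q t) (a, a) ≤ ENNReal.ofReal (1 / (t + c ^ 2 / (1 + M / (1 + t)))) := by
  obtain ⟨N, hN⟩ : ∃ N : ℝ, N = M / (1 + t) := ⟨_, rfl⟩
  have hN0 : 0 ≤ N := by rw [hN]; positivity
  rw [← hN]
  have hst : Real.sqrt t ^ 2 = t := Real.sq_sqrt ht.le
  have hD : 0 < c ^ 2 + t * (1 + N) := by positivity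
  have hfin : (c / (c ^ 2 + t * (1 + N))) ^ 2 * (1 + N)
      + (Real.sqrt t * (1 + N) / (c ^ 2 + t * (1 + N))) ^ 2 = 1 / (t + c ^ 2 / (1 + N)) := by
    have h1 : (1 : ℝ) + N ≠ 0 := by positivity
    have h2 : t + c ^ 2 / (1 + N) ≠ 0 := by positivity
    rw [div_pow, div_pow, mul_pow, hst]
    field_simp
    ring
  have hvec := vec_diag q (sig m t) (fun i => (sig_pos m t ht i).ne') a
    (c / (c ^ 2 + t * (1 + N))) (Real.sqrt t * (1 + N) / (c ^ 2 + t * (1 + N))) N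
    (by
      rw [hqa, sig_diag]
      field_simp
      rw [hst]
      ring)
    (by
      rw [hN]
      refine le_trans (le_of_eq ?_) (div_le_div_of_nonneg_right hM (by positivity))
      rw [Finset.sum_div]
      refine Finset.sum_congr rfl fun b hb => ?_
      rw [Finset.mem_filter] at hb
      have hb' : a ≠ b := hb.2.symm
      rw [sig_off m t a b hb', sig_off m t b a hb.2, div_pow, div_pow,
        Real.sq_sqrt (by positivity)]
      ring)
  obtain ⟨η, hη1, hη2⟩ := hvec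
  refine conjNormSq_le_of_vec q (sig m t) (a, a)
    (Real.toNNReal (1 / (t + c ^ 2 / (1 + N)))) (fun D => ⟨η, fun Q _ => hη1 Q, ?_⟩)
  rw [Real.coe_toNNReal _ (by positivity), ← hfin]
  exact hη2

theorem diag_num {c t : ℝ} (hc : 1 ≤ c) (ht : 0 < t) :
    1 / (t + c ^ 2 / (1 + 24 / (1 + t))) ≤ 1 / (t + c ^ 2) + 112 / √c * er t := by
  obtain ⟨w, hw, hw4, he⟩ := er_spec ht
  obtain ⟨k, hk, hk1, hkc⟩ : ∃ k : ℝ, √c = k ∧ 1 ≤ k ∧ k ^ 2 = c :=
    ⟨√c, rfl, Real.one_le_sqrt.2 hc, Real.sq_sqrt (by linarith)⟩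
  obtain ⟨N, hN⟩ : ∃ N : ℝ, N = 24 / (1 + t) := ⟨_, rfl⟩
  have hN0 : 0 < N := by rw [hN]; positivity
  have hc2 : 1 ≤ c ^ 2 := one_le_pow₀ hc
  have h1 : 1 / (t + c ^ 2 / (1 + N)) ≤ 1 / (t + c ^ 2) + N / (t + c ^ 2) := by
    rw [← add_div, div_le_div_iff₀ (by positivity) (by positivity)]
    have h2 : (1 + N) * (t + c ^ 2 / (1 + N)) = (1 + N) * t + c ^ 2 := by field_simp
    rw [h2]
    nlinarith [mul_pos hN0 ht]
  have h3 : k * w ≤ t + c ^ 2 := by
    have h4 : w ^ 2 ≤ w ^ 4 := pow_le_pow_right₀ hw (by norm_num)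
    have h5 : c ≤ c ^ 2 := by nlinarith
    nlinarith [sq_nonneg (k - w)]
  have h6 : N / (t + c ^ 2) ≤ 112 / k * (1 / w ^ 5) := by
    rw [hN, ← hw4, div_div, div_mul_div_comm, mul_one]
    refine div_le_div₀ (by norm_num) (by norm_num) (by positivity) ?_
    calc k * w ^ 5 = w ^ 4 * (k * w) := by ring
      _ ≤ _ := mul_le_mul_of_nonneg_left h3 (by positivity)
  rw [← hN, hk, he]
  linarith

theorem cube_est {B : Type} [NormedRing B] (A A' x y : B) (δ : ℝ) (hA : ‖A‖ ≤ 2) (hA' : ‖A'‖ ≤ 2)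
    (hx : ‖A - x‖ ≤ 2 * δ) (hy : ‖A' - y‖ ≤ 2 * δ) (h1 : δ ≤ 1) :
    ‖A * A' * A - x * y * x‖ ≤ 56 * δ := by
  have h0 : 0 ≤ δ := by linarith [norm_nonneg (A - x)]
  have hx4 : ‖x‖ ≤ 4 := by
    have := norm_sub_le A (A - x)
    rw [sub_sub_cancel] at this
    linarith
  have hy4 : ‖y‖ ≤ 4 := by
    have := norm_sub_le A' (A' - y)
    rw [sub_sub_cancel] at this
    linarith
  have key : ∀ (u v z : B) (a b c : ℝ), ‖u‖ ≤ a → ‖v‖ ≤ b → ‖z‖ ≤ c → ‖u * v * z‖ ≤ a * b * c := by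
    intro u v z a b c hu hv hz
    have ha : 0 ≤ a := (norm_nonneg _).trans hu
    have hb : 0 ≤ b := (norm_nonneg _).trans hv
    exact (norm_mul_le _ _).trans (mul_le_mul ((norm_mul_le _ _).trans
      (mul_le_mul hu hv (norm_nonneg _) ha)) hz (norm_nonneg _) (mul_nonneg ha hb))
  have e : A * A' * A - x * y * x = (A - x) * A' * A + x * (A' - y) * A + x * y * (A - x) := by
    noncomm_ring
  rw [e]
  have h2 := key _ _ _ _ _ _ hx hA' hA
  have h3 := key _ _ _ _ _ _ hx4 hy hA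
  have h4 := key _ _ _ _ _ _ hx4 hy4 hx
  have h5 := norm_add₃_le (a := (A - x) * A' * A) (b := x * (A' - y) * A) (c := x * y * (A - x))
  linarith

open P087L14 in
/-- the tracial von Neumann algebra of the model -/
def Tm (m : ℕ) : Tracial (vna (Big m)).toStarSubalgebra (Fock (Big m)) :=
  ⟨(vna (Big m)).toStarSubalgebra.subtype, Subtype.val_injective,
    ⟨vna (Big m), Subtype.range_val⟩, vac (Big m),
    vec_pos _ _ _ (isFNTState (Big m)).normal.choose_spec.2, (isFNTState (Big m)).map_one,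
    (isFNTState (Big m)).tracial, (isFNTState (Big m)).faithful,
    fun D s h1 h2 h3 h4 h5 => vec_normal _ _ _ (isFNTState (Big m)).normal.choose_spec.1
      (isFNTState (Big m)).normal.choose_spec.2 D s h1 h2 h3
      ⟨fun x hx => h4 x hx, fun u hu => h5 u fun x hx => hu hx⟩⟩

theorem Tm_tau (m : ℕ) : (Tm m).τ = vac (Big m) := rfl

theorem vac_sq (x : (vna (Big m)).toStarSubalgebra) :
    (vac (Big m) (star x * x)).re = ‖(x : Fock (Big m) →L[ℂ] Fock (Big m)) (bas [])‖ ^ 2 := by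
  rw [vac_apply]
  have h := inner_star x (bas []) ((x : Fock (Big m) →L[ℂ] Fock (Big m)) (bas []))
  rw [← inner_self_eq_norm_sq (𝕜 := ℂ), ← h]
  rfl

theorem vac_add_le (g e : (vna (Big m)).toStarSubalgebra) (s δ : ℝ) (hs : 0 ≤ s)
    (hg : (vac (Big m) (star g * g)).re = s ^ 2) (he : ‖e‖ ≤ δ) :
    (vac (Big m) (star (g + e) * (g + e))).re ≤ (s + δ) ^ 2 := by
  rw [vac_sq] at hg ⊢
  have h1 : ‖(g : Fock (Big m) →L[ℂ] Fock (Big m)) (bas [])‖ = s :=
    (pow_left_inj₀ (norm_nonneg _) hs two_ne_zero).1 hg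
  have h2 : ‖(e : Fock (Big m) →L[ℂ] Fock (Big m)) (bas [])‖ ≤ δ := by
    refine (ContinuousLinearMap.le_opNorm _ _).trans ?_
    rw [norm_bas, mul_one]
    exact he
  refine pow_le_pow_left₀ (norm_nonneg _) ?_ 2
  refine le_trans (norm_add_le ((g : Fock (Big m) →L[ℂ] Fock (Big m)) (bas []))
    ((e : Fock (Big m) →L[ℂ] Fock (Big m)) (bas []))) ?_
  linarith

open P087L14 in
theorem test_poly {A H : Type} [Ring A] [StarRing A] [Algebra ℂ A] [StarModule ℂ A]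
    [NormedAddCommGroup H] [InnerProductSpace ℂ H] [CompleteSpace H] (T : Tracial A H) {n : ℕ}
    {Y : Fin n → A} (hY : ∀ j, IsSelfAdjoint (Y j)) (j a b : Fin n) (ha : a ≠ j) (hb : b ≠ j)
    (r : ℂ) {v : ℝ} (hv : 0 < v)
    (h : (T.τ (star (Y j + r • (Y a * Y b * Y a)) * (Y j + r • (Y a * Y b * Y a)))).re ≤ v) :
    ENNReal.ofReal (1 / v) ≤ conjNormSq (law T.τ Y) j := by
  refine le_iInf₂ fun C hC => ?_
  have h1 := hC (Finsupp.single [j] 1 + Finsupp.single [a, b, a] r)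
  have h2 : P087.dq (law T.τ Y) j (Finsupp.single [j] 1 + Finsupp.single [a, b, a] r) = 1 := by
    rw [P087.dq, Finsupp.sum_add_index' (by simp) (by intro w x y; ring),
      Finsupp.sum_single_index (by simp), Finsupp.sum_single_index (by simp)]
    simp [dqWord, law, T.one, Fin.sum_univ_succ, ha, hb]
  have h3 : FreeAlgebra.lift ℂ Y (pol (Finsupp.single [j] 1 + Finsupp.single [a, b, a] r)) =
      Y j + r • (Y a * Y b * Y a) := by
    rw [pol, map_add, Finsupp.linearCombination_single, Finsupp.linearCombination_single, map_add,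
      map_smul, map_smul, P087L14.lift_mono, P087L14.lift_mono]
    simp [mul_assoc]
  rw [h2, normSq_eq T hY, h3, norm_one, one_pow] at h1
  rw [ENNReal.ofReal_le_coe, div_le_iff₀ hv]
  exact h1.trans (mul_le_mul_of_nonneg_left h C.2)

theorem off_num {c t δ : ℝ} (hc : 0 < c) (ht : 0 < t) (h0 : 0 ≤ δ) (h1 : δ ≤ 1)
    (h2 : δ ≤ √t / c) : 1 / (t + 1) - 112 / √c * er t ≤ 1 / (√(1 + t) + 56 * δ) ^ 2 := by
  obtain ⟨w, hw, hw4, he⟩ := er_spec ht
  obtain ⟨k, hk, hk0, hkc⟩ : ∃ k : ℝ, √c = k ∧ 0 < k ∧ k ^ 2 = c :=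
    ⟨√c, rfl, Real.sqrt_pos.2 hc, Real.sq_sqrt hc.le⟩
  have hs : √(1 + t) = w ^ 2 := by
    rw [← hw4, show w ^ 4 = (w ^ 2) ^ 2 by ring, Real.sqrt_sq (by positivity)]
  have h3 : δ ≤ w / k := by
    have h4 : √t ≤ w ^ 2 := hs ▸ Real.sqrt_le_sqrt (by linarith)
    have h5 : δ ^ 2 ≤ (w / k) ^ 2 := by
      rw [div_pow, hkc]
      have : δ ^ 2 ≤ δ := by nlinarith
      exact this.trans (h2.trans (div_le_div_of_nonneg_right h4 hc.le))
    exact (pow_le_pow_iff_left₀ h0 (by positivity) two_ne_zero).1 h5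
  obtain ⟨e, he'⟩ : ∃ e : ℝ, e = 56 * δ := ⟨_, rfl⟩
  have he0 : 0 ≤ e := by rw [he']; positivity
  have h6 : 2 * e / (w ^ 2) ^ 3 ≤ 112 / k * (1 / w ^ 5) := by
    have h7 : 112 / k * (1 / w ^ 5) = 112 * (w / k) / (w ^ 2) ^ 3 := by field_simp
    rw [h7, he']
    exact div_le_div_of_nonneg_right (by linarith) (by positivity)
  have h8 : 1 / (w ^ 2) ^ 2 - 2 * e / (w ^ 2) ^ 3 ≤ 1 / (w ^ 2 + e) ^ 2 := by
    obtain ⟨s, hs', hs0⟩ : ∃ s : ℝ, w ^ 2 = s ∧ 0 < s := ⟨_, rfl, by positivity⟩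
    rw [hs']
    have h9 : 1 / s ^ 2 - 2 * e / s ^ 3 = (s - 2 * e) / s ^ 3 := by field_simp
    rw [h9, div_le_div_iff₀ (by positivity) (by positivity)]
    nlinarith [mul_nonneg (mul_nonneg he0 he0) hs0.le, mul_nonneg (mul_nonneg he0 he0) he0]
  rw [hs, hk, he, ← he', add_comm t, ← hw4, show w ^ 4 = (w ^ 2) ^ 2 by ring]
  linarith

theorem norm_gen (x : Big m) : ‖gen x‖ ≤ 2 := norm_semL_le x

theorem norm_tupG (i : Idx m) : ‖tupG i‖ ≤ 2 := by rw [tupG_eq]; exact norm_gen _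

theorem vac_q0 (c t : ℝ) (ht : 0 < t) (i : Idx m) :
    vac (Big m) ((tupQ (q0 c) i + ((√t : ℝ) : ℂ) • tupS m i) *
      (tupQ (q0 c) i + ((√t : ℝ) : ℂ) • tupS m i)) = ((t + scl c i ^ 2 : ℝ) : ℂ) := by
  rw [← lawQ_q0_two c t ht i, ← law_tupQ (q0 c) ht.le]
  simp [law]

end Vale.Agent.N087

end
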