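import Vale.Agent.P087L14.Final

/-! The microstates free entropy under a change of scale of the variables. -/

set_option autoImplicit false
set_option linter.all false

open MeasureTheory Filter
open scoped ENNReal NNReal

noncomputable section

namespace Vale.Agent.N087

open Vale.Agent.P087

variable {ι : Type} [Fintype ι] [DecidableEq ι]

/-- the change of scale in coordinates -/
def scMap (l : ι → ℝ) (k : ℕ) :
    (ι → Fin k → Fin k → ℝ) →ₗ[ℝ] (ι → Fin k → Fin k → ℝ) :=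
  LinearMap.pi fun j => (l j • LinearMap.id).comp (LinearMap.proj j)

theorem scMap_apply (l : ι → ℝ) (k : ℕ) (x : ι → Fin k → Fin k → ℝ) (j : ι) :
    scMap l k x j = l j • x j := rfl

theorem scMap_det (l : ι → ℝ) (k : ℕ) : LinearMap.det (scMap l k) = ∏ j, l j ^ (k * k) := by
  rw [scMap, LinearMap.det_pi]
  refine Finset.prod_congr rfl fun j _ => ?_
  rw [LinearMap.det_smul, LinearMap.det_id, mul_one]
  congr 1
  simp [Module.finrank_pi_fintype]

/-- the moments of the scaled tuple -/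
def scLaw (l : ι → ℝ) (μ : List ι → ℂ) (w : List ι) : ℂ := ((w.map l).prod : ℝ) * μ w

theorem prod_smul_list {B : Type} [Ring B] [Algebra ℂ B] (l : ι → ℝ) (Y : ι → B) (w : List ι) :
    (w.map fun j => (l j : ℂ) • Y j).prod = (((w.map l).prod : ℝ) : ℂ) • (w.map Y).prod := by
  induction w with
  | nil => simp
  | cons a w ih =>
    rw [List.map_cons, List.prod_cons, ih, List.map_cons, List.prod_cons, List.map_cons,
      List.prod_cons, smul_mul_smul_comm, Complex.ofReal_mul]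

theorem prod_le_pow (l : ι → ℝ) (hl : ∀ j, 0 < l j) {L : ℝ} (hL : ∀ j, l j ≤ L) (w : List ι) :
    0 < (w.map l).prod ∧ (w.map l).prod ≤ L ^ w.length := by
  induction w with
  | nil => simp
  | cons a w ih =>
    rw [List.map_cons, List.prod_cons, List.length_cons, pow_succ']
    exact ⟨mul_pos (hl a) ih.1, mul_le_mul (hL a) ih.2 ih.1.le ((hl a).le.trans (hL a))⟩

theorem micro_scale (μ : List ι → ℂ) (l : ι → ℝ) (hl : ∀ j, 0 < l j) {L : ℝ} (hL1 : 1 ≤ L)
    (hL : ∀ j, l j ≤ L) (R : ℝ) (m k : ℕ) (ε : ℝ) :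
    scMap l k '' microstates μ R m k (ε / L ^ m) ⊆ microstates (scLaw l μ) (L * R) m k ε := by
  rintro _ ⟨x, ⟨h1, h2⟩, rfl⟩
  refine ⟨fun j => ?_, fun w hw1 hw2 => ?_⟩
  · rw [scMap_apply, herm_smul_lh, map_smul, norm_smul, Complex.norm_real,
      Real.norm_of_nonneg (hl j).le]
    exact mul_le_mul (hL j) (h1 j) (norm_nonneg _) (by linarith)
  · have h3 := h2 w hw1 hw2
    obtain ⟨h4, h5⟩ := prod_le_pow l hl hL w
    have h6 : (w.map l).prod ≤ L ^ m := h5.trans (pow_le_pow_right₀ hL1 hw2)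
    have h7 : 0 < L ^ m := by positivity
    simp only [scMap_apply, herm_smul_lh]
    rw [prod_smul_list l (fun j => herm k (x j)) w, Matrix.trace_smul, smul_eq_mul, scLaw,
      mul_left_comm, ← mul_sub, norm_mul, Complex.norm_real, Real.norm_of_nonneg h4.le]
    rw [lt_div_iff₀ h7] at h3
    refine lt_of_le_of_lt ?_ h3
    rw [mul_comm]
    exact mul_le_mul_of_nonneg_left h6 (norm_nonneg _)

theorem chiR_scale (μ : List ι → ℂ) (l : ι → ℝ) (hl : ∀ j, 0 < l j) {L : ℝ} (hL1 : 1 ≤ L)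
    (hL : ∀ j, l j ≤ L) (R : ℝ) :
    chiR μ R + ((∑ j, Real.log (l j) : ℝ) : EReal) ≤ chiR (scLaw l μ) (L * R) := by
  refine le_iInf fun m => le_iInf fun ε => le_iInf fun hε => ?_
  have hε' : 0 < ε / L ^ m := by positivity
  have h1 : chiR μ R ≤ limsup (fun k : ℕ =>
      ((((k : ℝ) ^ 2)⁻¹ : ℝ) : EReal) * ENNReal.log (volume (microstates μ R m k (ε / L ^ m)))
        + (((Fintype.card ι : ℝ) / 2 * Real.log k : ℝ) : EReal)) atTop :=
    iInf_le_of_le m (iInf_le_of_le _ (iInf_le _ hε'))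
  refine (add_le_add_left h1 _).trans ?_
  have h2 := EReal.le_limsup_add (f := atTop) (u := fun k : ℕ =>
      ((((k : ℝ) ^ 2)⁻¹ : ℝ) : EReal) * ENNReal.log (volume (microstates μ R m k (ε / L ^ m)))
        + (((Fintype.card ι : ℝ) / 2 * Real.log k : ℝ) : EReal))
    (v := fun _ => ((∑ j, Real.log (l j) : ℝ) : EReal))
  rw [liminf_const] at h2
  refine h2.trans (limsup_le_limsup ?_)
  filter_upwards [eventually_gt_atTop 0] with k hk
  have hk' : (0 : ℝ) < k := by exact_mod_cast hk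
  have h3 : volume (scMap l k '' microstates μ R m k (ε / L ^ m)) ≤
      volume (microstates (scLaw l μ) (L * R) m k ε) :=
    measure_mono (micro_scale μ l hl hL1 hL R m k ε)
  have hpos : 0 < ∏ j, l j ^ (k * k) := Finset.prod_pos fun j _ => pow_pos (hl j) _
  haveI i1 : (volume : Measure (Fin k → Fin k → ℝ)).IsAddHaarMeasure :=
    Measure.pi.isAddHaarMeasure _
  haveI i2 : (volume : Measure (ι → Fin k → Fin k → ℝ)).IsAddHaarMeasure :=
    Measure.pi.isAddHaarMeasure _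
  rw [Measure.addHaar_image_linearMap, scMap_det, abs_of_pos hpos] at h3
  have h4 := ENNReal.log_monotone h3
  rw [ENNReal.log_mul_add, ENNReal.log_ofReal_of_pos hpos,
    Real.log_prod fun j _ => (pow_pos (hl j) _).ne'] at h4
  have h5 := mul_le_mul_of_nonneg_left h4
    (show (0 : EReal) ≤ ((((k : ℝ) ^ 2)⁻¹ : ℝ) : EReal) from EReal.coe_nonneg.2 (by positivity))
  rw [EReal.left_distrib_of_nonneg_of_ne_top (EReal.coe_nonneg.2 (by positivity))
    (EReal.coe_ne_top _), ← EReal.coe_mul] at h5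
  have h6 : ((k : ℝ) ^ 2)⁻¹ * ∑ j, Real.log (l j ^ (k * k)) = ∑ j, Real.log (l j) := by
    rw [Finset.mul_sum]
    refine Finset.sum_congr rfl fun j _ => ?_
    rw [Real.log_pow]
    push_cast
    field_simp
  rw [h6] at h5
  rw [Pi.add_apply, add_right_comm, add_comm _ ((∑ j, Real.log (l j) : ℝ) : EReal)]
  exact add_le_add_left h5 _

theorem chi_scale_le (μ : List ι → ℂ) (l : ι → ℝ) (hl : ∀ j, 0 < l j) :
    chi μ + ((∑ j, Real.log (l j) : ℝ) : EReal) ≤ chi (scLaw l μ) := by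
  obtain ⟨L, hL1, hL⟩ : ∃ L : ℝ, 1 ≤ L ∧ ∀ j, l j ≤ L := by
    obtain ⟨a, ha⟩ := (Set.finite_range l).bddAbove
    exact ⟨max 1 a, le_max_left _ _, fun j => (ha ⟨j, rfl⟩).trans (le_max_right _ _)⟩
  rw [← EReal.le_sub_iff_add_le (Or.inl (EReal.coe_ne_bot _)) (Or.inl (EReal.coe_ne_top _))]
  refine iSup₂_le fun R hR => ?_
  rw [EReal.le_sub_iff_add_le (Or.inl (EReal.coe_ne_bot _)) (Or.inl (EReal.coe_ne_top _))]
  exact (chiR_scale μ l hl hL1 hL R).trans (le_iSup₂_of_le (L * R) (by positivity) le_rfl)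

theorem chi_scLaw (μ : List ι → ℂ) (l : ι → ℝ) (hl : ∀ j, 0 < l j) :
    chi (scLaw l μ) = chi μ + ((∑ j, Real.log (l j) : ℝ) : EReal) := by
  refine le_antisymm ?_ (chi_scale_le μ l hl)
  have h1 := chi_scale_le (scLaw l μ) (fun j => (l j)⁻¹) fun j => inv_pos.2 (hl j)
  have h2 : scLaw (fun j => (l j)⁻¹) (scLaw l μ) = μ := by
    funext w
    have h3 : (w.map fun j => (l j)⁻¹).prod * (w.map l).prod = 1 := by
      rw [← List.prod_map_mul]
      refine List.prod_eq_one fun x hx => ?_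
      obtain ⟨j, -, rfl⟩ := List.mem_map.1 hx
      exact inv_mul_cancel₀ (hl j).ne'
    rw [scLaw, scLaw, ← mul_assoc, ← Complex.ofReal_mul, h3, Complex.ofReal_one, one_mul]
  have h4 : ∑ j, Real.log (l j)⁻¹ = -∑ j, Real.log (l j) := by
    simp [Real.log_inv]
  rw [h2, h4, EReal.coe_neg, ← sub_eq_add_neg,
    EReal.sub_le_iff_le_add (Or.inl (EReal.coe_ne_bot _)) (Or.inl (EReal.coe_ne_top _))] at h1
  exact h1

open P087L14 in
theorem chi_smul {A H : Type} [Ring A] [StarRing A] [Algebra ℂ A] [StarModule ℂ A]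
    [NormedAddCommGroup H] [InnerProductSpace ℂ H] [CompleteSpace H]
    (T : Tracial A H) {n : ℕ} (X : Fin n → A) (l : Fin n → ℝ) (hl : ∀ j, 0 < l j) :
    T.chi (fun j => (l j : ℂ) • X j) = T.chi X + ((∑ j, Real.log (l j) : ℝ) : EReal) := by
  rw [chi_eq, chi_eq, ← chi_scLaw _ l hl]
  congr 1
  funext w
  rw [law, prod_smul_list, map_smul, smul_eq_mul]
  rfl

end Vale.Agent.N087

end
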